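import Mathlib
import Vale.Agent.Lib.P308.Count

/-!
# P308: near-perfect matchings of graphs with bounded independence number
-/

namespace Vale.Agent.Results.P308.NearPerfectRatio

/-- Let `G` be a finite simple graph on `n` vertices with a perfect matching.
(1) If every independent set of `G` has at most `a` vertices, then the number of near-perfect
matchings of `G` is at most `n ^ (4 a)` times the number of perfect matchings.
(2) The same holds under the weaker hypothesis that every sequence of edges
`x₁ y₁, ..., x_s y_s` of `G` with `x₁, ..., x_s` distinct and pairwise not adjacent and with `x_i` not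
adjacent to `y_j` for all `i < j` has length `s ≤ a`. -/
theorem result {V : Type*} [Fintype V] (G : SimpleGraph V) (a : ℕ)
    (hM : ∃ M : G.Subgraph, M.IsPerfectMatching) :
    ((∀ S : Finset V, G.IsIndepSet (S : Set V) → S.card ≤ a) →
      Nat.card {M : G.Subgraph // M.IsMatching ∧ (M.vertsᶜ).ncard = 2} ≤
        Fintype.card V ^ (4 * a) * Nat.card {M : G.Subgraph // M.IsPerfectMatching}) ∧
    ((∀ (s : ℕ) (x y : Fin s → V), (∀ i, G.Adj (x i) (y i)) →
        (∀ i j, i < j → x i ≠ x j ∧ ¬ G.Adj (x i) (x j) ∧ ¬ G.Adj (x i) (y j)) → s ≤ a) →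
      Nat.card {M : G.Subgraph // M.IsMatching ∧ (M.vertsᶜ).ncard = 2} ≤
        Fintype.card V ^ (4 * a) * Nat.card {M : G.Subgraph // M.IsPerfectMatching}) := by
  classical
  have key : (∀ (s : ℕ) (x y : Fin s → V), (∀ i, G.Adj (x i) (y i)) →
        (∀ i j, i < j → x i ≠ x j ∧ ¬ G.Adj (x i) (x j) ∧ ¬ G.Adj (x i) (y j)) → s ≤ a) →
      Nat.card {M : G.Subgraph // M.IsMatching ∧ (M.vertsᶜ).ncard = 2} ≤
        Fintype.card V ^ (4 * a) * Nat.card {M : G.Subgraph // M.IsPerfectMatching} := by
    intro h
    refine Vale.Agent.P308.main G (fun l h1 h2 => ?_) hM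
    rw [List.pairwise_iff_get] at h2
    exact h l.length (fun i => (l.get i).1) (fun i => (l.get i).2)
      (fun i => h1 _ (List.get_mem l i)) (fun i j hij => h2 i j hij)
  refine ⟨fun h => key fun s x y _ hx => ?_, key⟩
  have hinj : Function.Injective x := by
    intro i j hij
    by_contra hne
    rcases lt_or_gt_of_ne hne with h1 | h1
    · exact (hx i j h1).1 hij
    · exact (hx j i h1).1 hij.symm
  have h1 := h (Finset.univ.image x) (by
    intro u hu v hv huv
    obtain ⟨i, -, rfl⟩ := Finset.mem_image.1 (Finset.mem_coe.1 hu)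
    obtain ⟨j, -, rfl⟩ := Finset.mem_image.1 (Finset.mem_coe.1 hv)
    have hne : i ≠ j := fun h => huv (by rw [h])
    rcases lt_or_gt_of_ne hne with h1 | h1
    · exact (hx i j h1).2.1
    · exact fun h2 => (hx j i h1).2.1 h2.symm)
  rwa [Finset.card_image_of_injective _ hinj, Finset.card_univ, Fintype.card_fin] at h1

end Vale.Agent.Results.P308.NearPerfectRatio
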